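import Crest.Agent.N221.Tl.Bas
import Crest.Agent.N221.D.Hor
import Crest.Agent.N221.H.Hor
import Crest.Agent.N221.H.Irw
import Crest.Agent.N221.H.Nem

/-!
Row 221, block TAILS: from the windows on the cover to parametrised pieces of leaves and to
typical curves.
-/

set_option autoImplicit false

open MeasureTheory Set Filter Topology Metric
open scoped ContDiff RealInnerProductSpace ENNReal
open Crest.GeometryTopology.Submanifold
open Crest.Agent.R241.DDefs Crest.Agent.R241.D2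
open Crest.Agent.R208.J Crest.Agent.R208.L

noncomputable section

namespace Crest.Agent.N221.Tl

variable {n N : ℕ} {a : ℝ} {S : Set (Euc N)} {G : Geo n N (-(a ^ 2)) S} (C : Cov G)

lemma Win.mono {O : Set (TT N)} {k s s' : ℝ} {q : TT N} (h : Win G O k s q) (hs : s ≤ s') :
    Win G O k s' q := fun u hu => h u (hs.trans hu)

lemma Win.of_fl {O : Set (TT N)} {k s σ : ℝ} {q : TT N} (hq : q ∈ US G) (hs : 1 ≤ s)
    (hσ : σ ∈ Icc (0 : ℝ) 1) (h : Win G O k s (fl G (q, σ))) : Win G O (k + 1) s q := fun u hu => by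
  obtain ⟨τ, hτ, h⟩ := h u hu
  rw [← fl_add' G hq.1] at h
  exact ⟨_, ⟨by linarith [hτ.1, hσ.1], by linarith [hτ.2, hσ.2]⟩, h⟩

lemma horT' : H.HorS := H.horS (H.irwS H.nemS H.hadS H.fixS)

lemma contDiff_uf (H : Hyp n N a S) {η : Euc n} (hη : η ≠ 0) :
    ContDiff ℝ ∞ fun p : Euc n × ℝ => C.uf η p.2 p.1 :=
  C.contDiff_gd.comp (f := fun p : Euc n × ℝ => (p.1, -C.W η p.1, p.2)) (contDiff_fst.prodMk
    (((C.contDiff_W H horT' hη).comp contDiff_fst).neg.prodMk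
      contDiff_snd))

/-- the flow saturation of `J` is a submersion -/
lemma sat (H : Hyp n N a S) {η : Euc n} (hη : η ≠ 0) {E : Type} [NormedAddCommGroup E]
    [NormedSpace ℝ E] {J : E → Euc n} {z : E} (h : C.Sub η J z) :
    ∃ f' : E × ℝ →L[ℝ] Euc n, HasStrictFDerivAt (fun p : E × ℝ => C.uf η p.2 (J p.1)) f' (z, 0) ∧
      Function.Surjective f' := by
  obtain ⟨J', hJ, hs⟩ := h
  have h1 := ((contDiff_uf C H hη).contDiffAt (x := (J z, 0))).hasStrictFDerivAt (by simp)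
  set D := fderiv ℝ (fun p : Euc n × ℝ => C.uf η p.2 p.1) (J z, 0)
  have e1 : D ∘L .inl ℝ _ _ = .id ℝ _ :=
    (h1.hasFDerivAt.comp (J z) (hasFDerivAt_prodMk_left (J z) (0 : ℝ))).unique (by
      simp only [Function.comp_def, C.uf_zero]; exact hasFDerivAt_id (J z))
  have e2 : D (0, 1) = deriv (C.gd (J z) (-C.W η (J z))) 0 := by
    have := (h1.hasFDerivAt.comp (0 : ℝ) (hasFDerivAt_prodMk_right (J z) (0 : ℝ))).hasDerivAt
    simpa using (this.unique (C.hasDerivAt_gd (J z) (-C.W η (J z)) 0))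
  have e3 := C.fderiv_pr_deriv_gd (C.un_ou H.a_pos hη (J z)).mem 0
  rw [C.gd_zero, C.vel_zero, ← e2] at e3
  refine ⟨_, h1.comp (z, (0 : ℝ)) (hJ.prodMap (z, (0 : ℝ)) (hasStrictFDerivAt_id _)), fun v => ?_⟩
  obtain ⟨w, s, e⟩ := hs v
  refine ⟨(w, -s), C.fderiv_pr_inj (J z) ?_⟩
  have e4 : D (J' w, -s) = J' w + -s • D (0, 1) := by
    rw [← map_smul, show J' w = D (J' w, 0) from (congr($e1 (J' w))).symm, ← map_add]
    simp [show D (J' w, 0) = J' w from congr($e1 (J' w))]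
  simp only [ContinuousLinearMap.comp_apply, ContinuousLinearMap.coe_prodMap', Prod.map_apply,
    ContinuousLinearMap.id_apply, e4, map_add, map_smul, e3, ← e]
  simp

theorem cptS (hS : SubmS) (hW : WinS) : CptS := by
  intro n N a S G C O H hC hO p
  have ha := H.a_pos
  obtain ⟨k, hk, hw⟩ := hW n N a S G C O H hC hO p
  refine ⟨k + 1, by linarith, fun E _ _ _ _ _ μ _ η J K hη1 hK hJ => ?_⟩
  have hη : η ≠ 0 := Cov.bas_ne0 hη1
  set Ψ : E × ℝ → Euc n := fun p => C.uf η p.2 (J p.1)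
  have hK' : IsCompact (K ×ˢ ({0} : Set ℝ)) := hK.prod isCompact_singleton
  have hs : ∀ x ∈ K ×ˢ ({0} : Set ℝ), ∃ f' : E × ℝ →L[ℝ] Euc n, HasStrictFDerivAt Ψ f' x ∧
      Function.Surjective f' := by
    rintro ⟨z, _⟩ ⟨hz, rfl⟩; exact sat C H hη (hJ z hz)
  obtain ⟨V₁, hV₁, c, hc, hb⟩ := hS (E × ℝ) (Euc n) (μ.prod volume) volume Ψ _ hK' hs
  have hct : ∀ x ∈ K ×ˢ ({0} : Set ℝ), ContinuousAt Ψ x := fun x hx =>
    (hs x hx).choose_spec.1.continuousAt
  obtain ⟨R, hR⟩ := hK'.exists_bound_of_continuousOn fun x hx => (hct x hx).continuousWithinAt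
  have hV₂ : Ψ ⁻¹' ball 0 (R + 1) ∈ 𝓝ˢ (K ×ˢ ({0} : Set ℝ)) := mem_nhdsSet_iff_forall.2 fun x hx =>
    hct x hx (isOpen_ball.mem_nhds (by simp; linarith [hR x hx]))
  have := inter_mem hV₁ hV₂
  rw [hK.nhdsSet_prod_eq isCompact_singleton, nhdsSet_singleton] at this
  obtain ⟨V, hV, I, hI, hVI⟩ := mem_prod_iff.1 this
  obtain ⟨δ, hδ, hδI⟩ := Metric.mem_nhds_iff.1 (inter_mem hI (ball_mem_nhds 0 one_pos))
  have key : ∀ (A : Set E) (B : Set (Euc n)) (M : ℝ), 0 ≤ M →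
      C.vol {y | C.dd 0 y ≤ R + 1 ∧ y ∈ B} ≤ ENNReal.ofReal M →
      (∀ z ∈ A, ∀ σ ∈ Icc (0 : ℝ) 1, Ψ (z, σ) ∈ B) → μ (V ∩ A) ≤ ENNReal.ofReal (c / δ * M) := by
    intro A B M hM h1 h2
    have h3 : (V ∩ A) ×ˢ Ico 0 δ ⊆ V₁ ∩ Ψ ⁻¹' {y | C.dd 0 y ≤ R + 1 ∧ y ∈ B} := by
      rintro ⟨z, σ⟩ ⟨hz, hσ⟩
      have h4 := hδI (show σ ∈ ball 0 δ by simpa [abs_of_nonneg hσ.1] using hσ.2)
      have h5 := hVI (mk_mem_prod hz.1 h4.1)
      refine ⟨h5.1, ?_, h2 z hz.2 σ ⟨hσ.1, ?_⟩⟩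
      · rw [C.dd_zero]; exact (mem_ball_zero_iff.1 h5.2).le
      · exact (le_abs_self σ).trans (by simpa using (mem_ball_zero_iff.1 h4.2).le)
    have h4 := (measure_mono h3).trans ((hb _).trans (mul_le_mul_right
      ((C.volume_le_vol _).trans h1) _))
    rw [Measure.prod_prod, Real.volume_Ico, sub_zero, ← ENNReal.le_div_iff_mul_le
      (.inl (by simpa using hδ)) (.inl (by simp)), ← ENNReal.ofReal_mul hc.le,
      ← ENNReal.ofReal_div_of_pos hδ] at h4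
    rwa [div_mul_eq_mul_div]
  obtain ⟨K₁, hK₁, h1⟩ := hw (R + 1)
  obtain ⟨K₂, hK₂, h2⟩ := C.vol_ball_le H (R + 1)
  refine ⟨V, hV, c / δ * (K₁ + K₂ * Real.exp |p|), by positivity, fun s hs => ?_⟩
  rw [mul_assoc]
  rcases le_total 1 s with h | h
  · refine key _ {y | ¬ Win G O k s (C.ou η y)} _ (by positivity) ((h1 η 0 hη1 s hs).trans ?_)
      fun z hz σ hσ hw => hz (Win.of_fl (C.ou_mem ha hη _) h hσ (by rwa [C.fl_ou ha hη]))
    gcongr; exact le_add_of_nonneg_right (by positivity)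
  · refine key _ univ _ (by positivity) ((measure_mono fun y hy => hy.1).trans ((h2 0).trans
      (ENNReal.ofReal_le_ofReal ?_))) fun _ _ _ _ => trivial
    have : 1 ≤ Real.exp |p| * Real.exp (-(p * s)) := by
      rw [← Real.exp_add]
      exact Real.one_le_exp (by nlinarith [le_abs_self p, abs_nonneg p])
    nlinarith [mul_pos hK₁ (Real.exp_pos (-(p * s)))]

theorem aeS (hC : CptS) : AeS := by
  intro n N a S G C O H hc hO
  obtain ⟨k, hk, h⟩ := hC n N a S G C O H hc hO 1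
  refine ⟨k, hk, fun E _ _ _ _ _ μ _ η J hη => measure_null_of_locally_null _ fun z hz => ?_⟩
  simp only [mem_compl_iff, mem_ofPred_eq, Classical.not_imp] at hz
  obtain ⟨V, hV, c, -, hb⟩ := h E μ η J {z} hη isCompact_singleton (by simpa using hz.1)
  refine ⟨_, inter_mem_nhdsWithin _ (nhdsSet_singleton (x := z) ▸ hV), le_antisymm ?_ zero_le⟩
  have := ENNReal.tendsto_ofReal (Cov.BdyAux.tendsto_exp one_pos tendsto_id c)
  rw [ENNReal.ofReal_zero] at this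
  refine ge_of_tendsto this ((eventually_gt_atTop 0).mono fun s hs => (measure_mono ?_).trans
    (hb s hs.le))
  exact fun y hy => ⟨hy.2, fun hw => hy.1 fun _ => ⟨s, hs, hw⟩⟩

theorem curveS (hF : FubS) (hC : CptS) : CurveS := by
  intro n N a S G C O H hc hO c hc0
  obtain ⟨k, hk, h⟩ := hC n N a S G C O H hc hO (2 / c)
  refine ⟨k, hk, fun E _ _ _ _ _ μ _ η J Ω hη hΩ hJ => ?_⟩
  have := FiniteDimensional.proper_real E
  have := hF E μ Ω (fun s => {z | ¬ Win G O k (c * s) (C.ou η (J z))}) hΩ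
    (fun s s' hs z hz hw => hz (hw.mono (by gcongr))) fun K hK hKΩ => ?_
  · simpa using this
  obtain ⟨V, hV, c', -, hb⟩ := h (E × ℝ) (μ.prod volume) η J K hη hK fun z hz => hJ z (hKΩ hz)
  refine ⟨c', fun s hs => (measure_mono (inter_subset_inter_left _
    (subset_of_mem_nhdsSet hV))).trans ((hb _ (by positivity)).trans_eq ?_)⟩
  congr 4; field_simp

end Crest.Agent.N221.Tl
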