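import Crest.Agent.N221.Tl.Defs

/-! Row 221, block TAILS: Fubini, Markov and Borel-Cantelli on lines (helper60). -/

set_option autoImplicit false

open MeasureTheory Set Filter Topology Metric
open scoped ENNReal

noncomputable section

namespace Crest.Agent.N221.Tl

theorem fubS : FubS := by
  intro E _ _ _ _ μ _ Ω B hΩ hB h
  have := hΩ.locallyCompactSpace
  let K := CompactExhaustion.choice Ω
  have key : ∀ j, ∀ᵐ e ∂μ, ∀ᶠ n : ℕ in atTop, ¬ENNReal.ofReal ((1 / 2) ^ (n + 1)) ≤
      volume (Prod.mk e ⁻¹' (Subtype.val '' K j ∩ B (n * Real.log 2))) := fun j => by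
    obtain ⟨c, hc⟩ := h _ ((K.isCompact j).image continuous_subtype_val) (Subtype.coe_image_subset _ _)
    have h1 : ∀ n : ℕ, μ {e | ENNReal.ofReal ((1 / 2) ^ (n + 1)) ≤
        volume (Prod.mk e ⁻¹' (Subtype.val '' K j ∩ B (n * Real.log 2)))} ≤
        ENNReal.ofReal (2 * c * (1 / 2) ^ n) := fun n => by
      have hm := measurableSet_toMeasurable (μ.prod volume) (Subtype.val '' K j ∩ B (n * Real.log 2))
      refine (measure_mono fun e (he : _ ≤ _) => he.trans (measure_mono (preimage_mono
        (subset_toMeasurable (μ.prod volume) _)))).trans ((meas_ge_le_lintegral_div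
          (measurable_measure_prodMk_left hm).aemeasurable (by simp) ENNReal.ofReal_ne_top).trans ?_)
      rw [← Measure.prod_apply hm, measure_toMeasurable]
      refine ENNReal.div_le_of_le_mul ((hc _ (by positivity)).trans (le_of_eq ?_))
      rw [← ENNReal.ofReal_mul' (by positivity), Real.exp_neg, two_mul (_ * Real.log 2), Real.exp_add,
        Real.exp_nat_mul, Real.exp_log two_pos]
      congr 1
      simp only [one_div, inv_pow]
      field_simp
      ring
    exact ae_eventually_notMem (ne_top_of_le_ne_top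
      (summable_geometric_two.mul_left (2 * c)).tsum_ofReal_ne_top (ENNReal.tsum_le_tsum h1))
  filter_upwards [ae_all_iff.2 key] with e he a b hab
  obtain ⟨j, hj⟩ := K.exists_superset_of_isCompact (s := Subtype.val ⁻¹' (Prod.mk e '' Icc a b)) (by
    rw [Subtype.isCompact_iff, Subtype.image_preimage_coe, inter_eq_right.2 (image_subset_iff.2 hab)]
    exact isCompact_Icc.image (Continuous.prodMk_right e))
  obtain ⟨n0, h0⟩ := eventually_atTop.1 (he j)
  refine ⟨(1 / 2) ^ n0, by positivity, fun ε hε u hu hb => ?_⟩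
  obtain ⟨n, h1, h2⟩ := exists_nat_pow_near_of_lt_one hε.1
    (hε.2.le.trans (pow_le_one₀ (by norm_num) (by norm_num))) one_half_pos one_half_lt_one
  have h3 := (pow_lt_pow_iff_right_of_lt_one₀ one_half_pos one_half_lt_one).1 (h1.trans hε.2)
  have h4 : n * Real.log 2 ≤ Real.log ε⁻¹ := by
    have := Real.log_le_log hε.1 h2
    rw [Real.log_pow, one_div, Real.log_inv] at this
    rw [Real.log_inv]
    linarith
  by_contra! h5
  refine h0 n (by omega) (le_trans ?_ (measure_mono (s := Icc u (u + ε)) fun t ht => ⟨?_, hB h4 (h5 t ht)⟩))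
  · rw [Real.volume_Icc, add_sub_cancel_left]
    exact ENNReal.ofReal_le_ofReal h1.le
  · have : t ∈ Icc a b := ⟨hu.trans ht.1, ht.2.trans hb⟩
    exact ⟨⟨(e, t), hab t this⟩, hj ⟨t, this, rfl⟩, rfl⟩

end Crest.Agent.N221.Tl
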