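import Crest.Agent.N221.Tl.Bas

/-!
Row 221, block TAILS: uniform return of unit unstable balls to an open set (`RetS`).
-/

set_option autoImplicit false

open MeasureTheory Set Filter Topology Metric
open scoped ContDiff RealInnerProductSpace ENNReal
open Crest.GeometryTopology.Submanifold
open Crest.Agent.R241.DDefs Crest.Agent.R241.D2
open Crest.Agent.R208.J Crest.Agent.R208.L

noncomputable section

namespace Crest.Agent.N221.Tl

namespace Rt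

variable {n N : ℕ} {a : ℝ} {S : Set (Euc N)} {G : Geo n N (-(a ^ 2)) S} (C : Cov G)
  (H : Hyp n N a S)
include H

/-- asymptotic geodesics come close in the unit tangent bundle -/
lemma asy_close {x : Euc n} {v : Euc N} (hv : C.Un x v) (y : Euc n) {ε : ℝ} (hε : 0 < ε) :
    ∃ T, ∀ s, T ≤ s →
      dist (fl G ((C.pr y, C.asy x v y), s)) (fl G ((C.pr x, v), s - C.bus x v y)) < ε := by
  have ha := H.a_pos
  obtain ⟨K, hK, h⟩ := C.up_close H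
  have hw := C.un_asy ha hv y
  have e1 := Cov.BdyAux.tendsto_exp ha (tendsto_id (α := ℝ) (x := atTop)) (2 / a * Real.sinh (a * C.dd x y))
  have e2 := e1.comp (tendsto_atTop_add_const_right atTop (1 : ℝ) tendsto_id)
  have e3 := (e1.add e2).const_mul K
  rw [add_zero, mul_zero] at e3
  obtain ⟨T, hT⟩ := eventually_atTop.1 ((e3.eventually_lt_const hε).and (eventually_ge_atTop 0))
  refine ⟨T, fun s hs => lt_of_le_of_lt ?_ (hT s hs).1⟩
  have s0 := (hT s hs).2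
  rw [C.up_gd (hw.mem C), C.up_gd (hv.mem C)]
  refine (h _ _ _ _ (hw.vel C s) (hv.vel C _) 1 (.inl rfl)).trans
    (mul_le_mul_of_nonneg_left (add_le_add ?_ ?_) hK.le)
  · exact (C.asy_tail ha hv y s0).trans_eq (by simp only [id]; ring)
  · rw [C.gd_add (hw.mem C), C.gd_add (hv.mem C), sub_add_eq_add_sub]
    exact (C.asy_tail ha hv y (by linarith)).trans_eq (by simp only [id, Function.comp]; ring)

/-- pointwise return -/
lemma pt {q : TT N} (hq : q ∈ US G) {r : ℝ} (hr : 0 < r) {η : Euc n} (hη : ‖η‖ = 1) (x : Euc n) :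
    ∃ x', C.dd x x' < 1 ∧ ∃ τ, 0 ≤ τ ∧ dist (fl G (C.ou η x', τ)) q < r := by
  have ha := H.a_pos
  have hT : TrS := trS sys volT lps
  have h0 : η ≠ 0 := norm_ne_zero_iff.1 (hη ▸ one_ne_zero)
  obtain ⟨x₀, v₀, hu, htr⟩ := C.exists_trans H hT
  have hv := C.un_ou ha h0 x
  have e1 := C.ft_ep ha hv
  have e2 := C.ep_GG ha hv
  rw [neg_neg, C.ep_W ha hη] at e1 e2
  generalize -C.b (C.ep x (-C.W η x)) x = s at e1
  generalize C.ep x (-C.W η x) = ξ at e1 e2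
  have hO := Cov.GG_sub e2
  have c1 : ContinuousAt (fun ζ => C.dd x (C.ft ζ η s)) ξ :=
    (C.continuous_dd_right x).continuousAt.comp (ContinuousAt.comp
      (f := fun ζ : Euc n => ((ζ, η), s)) ((C.continuousOn_ft ha).continuousAt
        ((Cov.isOpen_GO.prod isOpen_univ).mem_nhds ⟨hO, trivial⟩)) (by fun_prop))
  have c2 : ∀ᶠ ζ in 𝓝 ξ, (ζ, η) ∈ GO n :=
    (by fun_prop : Continuous fun ζ : Euc n => (ζ, η)).continuousAt.eventually
      (Cov.isOpen_GO.mem_nhds hO)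
  obtain ⟨δ, hδ, hn⟩ := Metric.eventually_nhds_iff.1 (c2.and (c1.eventually_lt_const
    (show C.dd x (C.ft ξ η s) < 1 by rw [e1, C.dd_self]; exact one_pos)))
  obtain ⟨g, hg, hd⟩ := C.minimal H hT e2.1 (C.norm_ep ha hu) hδ
  rw [C.act_ep ha hg hu, ← dist_eq_norm] at hd
  obtain ⟨h1, h2⟩ := hn hd
  have hu' : C.Un (g x₀) v₀ := (hg.un C).2 hu
  refine ⟨_, h2, ?_⟩
  have e3 := (C.ft_spec ha h1 s).1
  generalize C.ft (C.ep (g x₀) v₀) η s = x' at e3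
  obtain ⟨T, hT⟩ := asy_close C H hu' x' (half_pos hr)
  obtain ⟨xq, e4, hxq⟩ := C.exists_un hq
  obtain ⟨⟨g', t, hg', ht, d1, d2⟩, -⟩ :=
    htr xq q.2 hxq _ (half_pos hr) (max T 0 - C.bus (g x₀) v₀ x')
  refine ⟨t + C.bus (g x₀) v₀ x', by linarith [le_max_right T 0], ?_⟩
  have h3 := hT (t + C.bus (g x₀) v₀ x') (by linarith [le_max_left T 0])
  rw [add_sub_cancel_right, hg.pr_eq, C.up_gd (hu.mem C)] at h3
  rw [Cov.ou, e3, neg_neg, C.W_ep ha hu', ← add_halves r]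
  refine (dist_triangle _ _ _).trans_lt (add_lt_add h3 ?_)
  rw [dist_comm, Prod.dist_eq, dist_eq_norm, dist_eq_norm, ← e4, ← hg'.pr_eq (C.gd x₀ v₀ t)]
  exact max_lt ((C.pr_sub_le _ _).trans_lt d1) d2

end Rt

theorem retS : RetS := by
  rintro n N a S G C O H ⟨q, hq, r, hr, hO⟩
  have ha := H.a_pos
  obtain ⟨D, -, hD⟩ := C.exists_deck
  have key : ∃ τ₀ r₀ : ℝ, 0 ≤ τ₀ ∧ 0 < r₀ ∧ ∀ z ∈ sphere (0 : Euc n) 1 ×ˢ closedBall (0 : Euc n) D,
      ∃ x', C.dd z.2 x' ≤ 1 ∧ ∀ y, C.dd x' y < r₀ → ∃ τ ∈ Icc 0 τ₀, fl G (C.ou z.1 y, τ) ∈ O := by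
    refine ((isCompact_sphere (0 : Euc n) 1).prod (isCompact_closedBall (0 : Euc n) D)).induction_on
      (p := fun s => ∃ τ₀ r₀ : ℝ, 0 ≤ τ₀ ∧ 0 < r₀ ∧ ∀ z ∈ s, ∃ x', C.dd z.2 x' ≤ 1 ∧
        ∀ y, C.dd x' y < r₀ → ∃ τ ∈ Icc 0 τ₀, fl G (C.ou z.1 y, τ) ∈ O)
      ⟨0, 1, le_rfl, one_pos, fun _ h => h.elim⟩
      (fun s t hst ⟨τ₀, r₀, h1, h2, h⟩ => ⟨τ₀, r₀, h1, h2, fun z hz => h z (hst hz)⟩) ?_ ?_
    · rintro s t ⟨τ₁, r₁, a1, a2, h⟩ ⟨τ₂, r₂, -, b2, h'⟩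
      refine ⟨max τ₁ τ₂, min r₁ r₂, le_max_of_le_left a1, lt_min a2 b2, fun z hz => ?_⟩
      rcases hz with hz | hz
      · obtain ⟨x', d, hx⟩ := h z hz
        exact ⟨x', d, fun y hy => (hx y (hy.trans_le (min_le_left _ _))).imp fun τ hτ =>
          ⟨⟨hτ.1.1, le_max_of_le_left hτ.1.2⟩, hτ.2⟩⟩
      · obtain ⟨x', d, hx⟩ := h' z hz
        exact ⟨x', d, fun y hy => (hx y (hy.trans_le (min_le_right _ _))).imp fun τ hτ =>
          ⟨⟨hτ.1.1, le_max_of_le_right hτ.1.2⟩, hτ.2⟩⟩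
    · rintro ⟨η, x⟩ ⟨hη, -⟩
      have hη' : ‖η‖ = 1 := mem_sphere_zero_iff_norm.1 hη
      have h0 : η ≠ 0 := norm_ne_zero_iff.1 (hη' ▸ one_ne_zero)
      obtain ⟨x', d, τ, t0, hτ⟩ := Rt.pt C H hq hr hη' x
      have o1 : {p : Euc n × Euc n | p.1 ≠ 0} ∈ 𝓝 (η, x') :=
        (isOpen_ne.preimage continuous_fst).mem_nhds h0
      have c1 : ContinuousOn (fun p : Euc n × Euc n => C.ou p.1 (C.uf p.1 τ p.2)) {p | p.1 ≠ 0} :=
        (C.continuousOn_ou ha).comp (f := fun p : Euc n × Euc n => (p.1, C.uf p.1 τ p.2))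
          (continuousOn_fst.prodMk ((C.continuousOn_uf ha).comp
            (f := fun p : Euc n × Euc n => (p.1, τ, p.2)) (by fun_prop) fun _ h => h)) fun _ h => h
      rw [C.fl_ou ha h0] at hτ
      obtain ⟨δ, hδ, hn⟩ := Metric.eventually_nhds_iff.1 (Eventually.and o1
        ((c1.continuousAt o1).eventually (isOpen_ball.mem_nhds (mem_ball.2 hτ))))
      refine ⟨{z | dist z.1 η < δ ∧ C.dd z.2 x' < 1}, mem_nhdsWithin_of_mem_nhds
        (IsOpen.mem_nhds ((isOpen_ball.preimage continuous_fst).inter (isOpen_lt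
          (C.cont_dd continuous_snd continuous_const) continuous_const)) ⟨by simpa, d⟩),
        τ, δ, t0, hδ, fun z hz => ⟨x', hz.2.le, fun y hy => ⟨τ, ⟨t0, le_rfl⟩, ?_⟩⟩⟩
      obtain ⟨h1, h2⟩ := hn (y := (z.1, y)) (by
        rw [Prod.dist_eq, dist_comm y, dist_eq_norm x']
        exact max_lt hz.1 ((C.norm_sub_le_dd ha.le _ _).trans_lt hy))
      rw [C.fl_ou ha h1]
      exact hO ⟨C.ou_mem ha h1 _, h2⟩
  obtain ⟨τ₀, r₀, h1, h2, h⟩ := key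
  refine ⟨τ₀, r₀, h1, h2, fun η x hη => ?_⟩
  have h0 : η ≠ 0 := norm_ne_zero_iff.1 (hη ▸ one_ne_zero)
  obtain ⟨g, hg, hx⟩ := hD x
  obtain ⟨x', d, hx'⟩ := h (C.act g η, g x)
    ⟨mem_sphere_zero_iff_norm.2 (C.norm_act ha hg h0), mem_closedBall_zero_iff.2 hx⟩
  obtain ⟨x'', rfl⟩ := hg.bij.2 x'
  refine ⟨x'', (hg.dd_eq C _ _).symm.trans_le d, fun y hy => ?_⟩
  rw [← C.ou_deck ha hg h0]
  exact hx' (g y) ((hg.dd_eq C _ _).trans_lt hy)

end Crest.Agent.N221.Tl
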