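import Crest.Agent.N221.Tl.Defs

/-!
Row 221, block TAILS: preimages under a submersion have comparable measure (leaf Tl-Subm, helper38).
-/

set_option autoImplicit false

open MeasureTheory MeasureTheory.Measure Set Filter Topology Metric Module
open scoped ENNReal NNReal

noncomputable section

namespace Crest.Agent.N221.Tl

namespace Subm

variable {E F : Type} [NormedAddCommGroup E] [NormedSpace ℝ E] [FiniteDimensional ℝ E]
  [MeasurableSpace E] [BorelSpace E] [NormedAddCommGroup F] [NormedSpace ℝ F]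
  [FiniteDimensional ℝ F] [MeasurableSpace F] [BorelSpace F]

/-- a Lipschitz map between spaces of the same dimension increases Haar measures boundedly -/
theorem lip_image (μ : Measure E) (ν : Measure F) [μ.IsAddHaarMeasure] [ν.IsAddHaarMeasure]
    (hd : finrank ℝ E = finrank ℝ F) {g : F → E} {L : ℝ≥0} {W : Set F} (hg : LipschitzOnWith L g W) :
    ∃ c : ℝ≥0, ∀ A ⊆ W, μ (g '' A) ≤ c * ν A := by
  refine ⟨addHaarScalarFactor μ μH[finrank ℝ E] * L ^ finrank ℝ E *
    addHaarScalarFactor μH[finrank ℝ F] ν, fun A hA => ?_⟩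
  have h1 := (hg.mono hA).hausdorffMeasure_image_le (d := finrank ℝ E) (Nat.cast_nonneg _)
  have h2 : μ (g '' A) = addHaarScalarFactor μ μH[finrank ℝ E] * μH[finrank ℝ E] (g '' A) := by
    conv_lhs => rw [isAddLeftInvariant_eq_smul μ μH[finrank ℝ E]]
    rfl
  have h3 : μH[finrank ℝ E] A = addHaarScalarFactor μH[finrank ℝ F] ν * ν A := by
    rw [hd]
    conv_lhs => rw [isAddLeftInvariant_eq_smul μH[finrank ℝ F] ν]
    rfl
  rw [h3, ENNReal.rpow_natCast] at h1
  rw [h2]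
  push_cast
  rw [mul_assoc, mul_assoc]
  gcongr

/-- the local form -/
theorem loc (μ : Measure E) (ν : Measure F) [μ.IsAddHaarMeasure] [ν.IsAddHaarMeasure] {f : E → F} {x : E}
    {f' : E →L[ℝ] F} (hf : HasStrictFDerivAt f f' x) (hs : Function.Surjective f') :
    ∃ V ∈ 𝓝 x, ∃ c : ℝ≥0, ∀ B, μ (V ∩ f ⁻¹' B) ≤ c * ν B := by
  have := FiniteDimensional.complete ℝ E
  have := FiniteDimensional.complete ℝ F
  let D := hf.implicitFunctionDataOfComplemented f f' (LinearMap.range_eq_top.2 hs)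
    f'.ker_closedComplemented_of_finiteDimensional_range
  have hD := D.hasStrictFDerivAt
  obtain ⟨L, W, hW, hL⟩ := hD.to_localInverse.exists_lipschitzOnWith
  obtain ⟨c, hc⟩ := lip_image μ (ν.prod (addHaar : Measure f'.ker))
    (LinearEquiv.finrank_eq (ContinuousLinearEquiv.toLinearEquiv (D.leftDeriv.equivProdOfSurjectiveOfIsCompl
      D.rightDeriv D.range_leftDeriv D.range_rightDeriv D.isCompl_ker))) hL
  have hb : (addHaar : Measure f'.ker) (ball (D.rightFun x) 1) ≠ ⊤ := measure_ball_lt_top.ne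
  have e1 := hD.eventually_left_inverse
  have e2 : ∀ᶠ y in 𝓝 x, D.prodFun y ∈ W := hD.continuousAt hW
  have e3 : ∀ᶠ y in 𝓝 x, D.rightFun y ∈ ball (D.rightFun x) 1 :=
    D.hasStrictFDerivAt_rightFun.continuousAt (ball_mem_nhds _ one_pos)
  refine ⟨_, (e1.and (e2.and e3) :), c * ((addHaar : Measure f'.ker) (ball (D.rightFun x) 1)).toNNReal,
    fun B => ?_⟩
  refine (measure_mono ?_).trans ((hc (W ∩ B ×ˢ ball (D.rightFun x) 1) inter_subset_left).trans ?_)
  · rintro y ⟨⟨h1, h2, h3⟩, h4⟩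
    exact ⟨D.prodFun y, ⟨h2, h4, h3⟩, h1⟩
  · rw [ENNReal.coe_mul, ENNReal.coe_toNNReal hb, mul_assoc, mul_comm _ (ν B), ← prod_prod]
    gcongr
    exact inter_subset_right

end Subm

theorem submS : SubmS := by
  intro E F _ _ _ _ _ _ _ _ _ _ μ ν _ _ f K hK h
  suffices ∃ V ∈ 𝓝ˢ K, ∃ c : ℝ≥0, ∀ B, μ (V ∩ f ⁻¹' B) ≤ c * ν B by
    obtain ⟨V, hV, c, hc⟩ := this
    refine ⟨V, hV, c + 1, by positivity, fun B => (hc B).trans ?_⟩
    gcongr
    rw [← ENNReal.ofReal_coe_nnreal]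
    exact ENNReal.ofReal_le_ofReal (by linarith)
  refine hK.induction_on (p := fun s => ∃ V ∈ 𝓝ˢ s, ∃ c : ℝ≥0, ∀ B, μ (V ∩ f ⁻¹' B) ≤ c * ν B)
    ⟨∅, by simp, 0, by simp⟩ (fun s t hst ⟨V, hV, hc⟩ => ⟨V, nhdsSet_mono hst hV, hc⟩)
    (fun s t ⟨V, hV, c, hc⟩ ⟨V', hV', c', hc'⟩ => ⟨V ∪ V', union_mem_nhdsSet hV hV', c + c', fun B => ?_⟩)
    fun x hx => ?_
  · rw [union_inter_distrib_right, ENNReal.coe_add, add_mul]
    exact (measure_union_le _ _).trans (add_le_add (hc B) (hc' B))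
  · obtain ⟨f', hf, hs⟩ := h x hx
    obtain ⟨V, hV, hc⟩ := Subm.loc μ ν hf hs
    exact ⟨interior V, mem_nhdsWithin_of_mem_nhds (interior_mem_nhds.2 hV), V,
      subset_interior_iff_mem_nhdsSet.1 subset_rfl, hc⟩

end Crest.Agent.N221.Tl
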