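import Crest.Agent.N221.Tl.Jac

/-!
Row 221, block TAILS: exponential tails (`tailS`) and windows (`winS`).
-/

set_option autoImplicit false

open MeasureTheory Set Filter Topology Metric
open scoped ContDiff RealInnerProductSpace ENNReal
open Crest.GeometryTopology.Submanifold
open Crest.Agent.R241.DDefs Crest.Agent.R241.D2
open Crest.Agent.R208.J Crest.Agent.R208.L

noncomputable section

namespace Crest.Agent.N221.Tl

variable {n N : ℕ} {a : ℝ} {S : Set (Euc N)} {G : Geo n N (-(a ^ 2)) S} (C : Cov G)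

lemma contr (ha : 0 < a) {η : Euc n} (hη : η ≠ 0) {x y : Euc n} {D l s : ℝ} (hD : C.dd x y ≤ D)
    (hs : 0 ≤ s) (hl : l + s ≤ C.b η y) :
    C.dd (C.lv η l x) (C.lv η l y) ≤ 2 / a * Real.exp (-(a * s)) * Real.sinh (a * D) := by
  rw [C.dd_comm]
  refine (C.dd_lv_le ha hη x y (by linarith)).trans ?_
  have := Real.sinh_nonneg_iff.2 (mul_nonneg ha.le (C.dd_nonneg x y))
  gcongr
  · linarith
  · exact Real.sinh_le_sinh.2 (by gcongr)

lemma contr' (ha : 0 < a) {η : Euc n} (hη : η ≠ 0) {x y : Euc n} {D l l' s : ℝ}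
    (hD : C.dd (C.lv η l' x) (C.lv η l' y) ≤ D) (hs : 0 ≤ s) (hl : l + s ≤ l') :
    C.dd (C.lv η l x) (C.lv η l y) ≤ 2 / a * Real.exp (-(a * s)) * Real.sinh (a * D) := by
  have := contr C ha hη hD hs (l := l) (by rwa [C.b_lv ha hη])
  rwa [C.lv_lv ha hη, C.lv_lv ha hη] at this

/-- one slab -/
lemma slab (hE : EscS) (hR : RetS) (H : Hyp n N a S) (hC : Cob G) {O : Set (TT N)}
    (hO : Fat G O) : ∃ γ > 0, ∃ Δ > 0, ∀ R : ℝ, ∃ K > 0, ∀ η x₀ : Euc n, ‖η‖ = 1 →
      ∀ ℓ l₀ : ℝ, ℓ ≤ l₀ → ∀ j : ℕ, C.vol {x | C.b η x ∈ Icc ℓ (ℓ + 1) ∧ C.dd x₀ x ≤ R ∧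
        ∀ l ∈ Ico l₀ (l₀ + j * Δ), C.ou η (C.lv η l x) ∉ O} ≤
        ENNReal.ofReal (K * Real.exp (-(γ * j))) := by
  have ha := H.a_pos
  obtain ⟨h, K, hK, hJ⟩ := jacS n N a S G C H hC
  obtain ⟨τ₀, r₀, hτ, hr₀, hret⟩ := hR n N a S G C O H hO
  obtain ⟨ρ, hρ, hρ1, hρ2⟩ : ∃ ρ > 0, 2 * ρ ≤ r₀ ∧ ρ ≤ 1 / 2 :=
    ⟨min (r₀ / 2) (1 / 2), by positivity, by linarith [min_le_left (r₀ / 2) (1 / 2)],
      min_le_right _ _⟩
  obtain ⟨c, hc, hlow⟩ := C.vol_ball_ge H hρ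
  obtain ⟨r, hr1, hr⟩ : ∃ r, 1 ≤ r ∧ 2 / a * Real.sinh (a * 2) < r := ⟨_, le_add_of_nonneg_left
    (by have := Real.sinh_nonneg_iff.2 (show 0 ≤ a * 2 by positivity); positivity), lt_add_one _⟩
  obtain ⟨M, hM, hup⟩ := C.vol_ball_le H (3 * r + 1)
  obtain ⟨D, hD, hD'⟩ : ∃ D, τ₀ + 1 ≤ D ∧
      2 / a * Real.exp (-(a * D)) * Real.sinh (a * r) < ρ := by
    have := (Cov.BdyAux.tendsto_exp ha tendsto_id (2 / a * Real.sinh (a * r))).eventually
      (gt_mem_nhds hρ)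
    obtain ⟨D, h1, h2⟩ := ((eventually_ge_atTop (τ₀ + 1)).and this).exists
    exact ⟨D, h1, by simpa [mul_right_comm] using h2⟩
  set γ := c * Real.exp (-(3 * |h|)) / (K * K * M) with hγ
  refine ⟨γ, by positivity, D + 4, by linarith, fun R => ?_⟩
  obtain ⟨K₀, hK₀, hup₀⟩ := C.vol_ball_le H (R + 2 + 2 / a * Real.sinh (a * r))
  refine ⟨K₀, hK₀, fun η x₀ hη1 ℓ l₀ hℓ j => ?_⟩
  have hη : η ≠ 0 := Cov.bas_ne0 hη1
  have tri := C.dd_triangle ha.le
  set Z := {x | C.b η x ∈ Icc ℓ (ℓ + 1)}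
  set L : ℕ → ℝ := fun j => l₀ + j * (D + 4) with hL
  have L0 : ∀ j, l₀ ≤ L j := fun j => le_add_of_nonneg_right (by
    have : 0 ≤ D + 4 := by linarith
    positivity)
  have Ls : ∀ j, L (j + 1) = L j + (D + 4) := fun j => by simp only [hL]; push_cast; ring
  set A : ℕ → Set (Euc n) := fun j => {x | C.b η x ∈ Icc ℓ (ℓ + 1) ∧ C.dd x₀ x ≤ R ∧
    ∀ l ∈ Ico l₀ (L j), C.ou η (C.lv η l x) ∉ O}
  set d : ℕ → Euc n → Euc n → ℝ := fun j x y => C.dd (C.lv η (L j) x) (C.lv η (L j) y)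
  set P : ℕ → Set (Euc n) := fun j => ⋃ x ∈ A j, {y | y ∈ Z ∧ d j x y < r}
  have lvd : ∀ y ∈ Z, C.dd y (C.lv η ℓ y) ≤ 1 := fun y hy => by
    rw [Cov.lv, C.dd_uf ha hη, abs_le]; constructor <;> linarith [hy.1, hy.2]
  have hP0 : C.vol (P 0) ≤ ENNReal.ofReal K₀ := by
    refine (measure_mono fun y hy => ?_).trans (hup₀ x₀)
    obtain ⟨x, hx, hy, hxy⟩ := mem_iUnion₂.1 hy
    have h1 := contr' C ha hη hxy.le le_rfl (l := ℓ) (by linarith [L0 0])
    have h2 := lvd x hx.1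
    have h3 := lvd y hy
    rw [C.dd_comm] at h3
    simp only [mul_zero, neg_zero, Real.exp_zero, mul_one] at h1
    have := tri x₀ x y; have := tri x (C.lv η ℓ x) y; have := tri (C.lv η ℓ x) (C.lv η ℓ y) y
    show C.dd x₀ y ≤ _
    linarith [hx.2.1]
  have small : ∀ j x y l, d (j + 1) x y < r → l ≤ L j + 4 →
      C.dd (C.lv η l x) (C.lv η l y) < ρ := fun j x y l hxy hl =>
    (contr' C ha hη hxy.le (s := D) (by linarith) (by rw [Ls]; linarith)).trans_lt hD'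
  have hPP : ∀ j, P (j + 1) ⊆ P j := fun j y hy => by
    obtain ⟨x, hx, hy, hxy⟩ := mem_iUnion₂.1 hy
    refine mem_iUnion₂.2 ⟨x, ⟨hx.1, hx.2.1, fun l hl => hx.2.2 l ⟨hl.1, ?_⟩⟩, hy,
      (small j x y _ hxy (by linarith)).trans_le (by linarith)⟩
    rw [Ls]; linarith [hl.2]
  have fin : ∀ j, C.vol (P j) ≠ ⊤ := fun j => ne_top_of_le_ne_top ENNReal.ofReal_ne_top
    ((measure_mono (antitone_nat_of_succ_le hPP (Nat.zero_le j))).trans hP0)
  have step : ∀ j, C.vol.real (P (j + 1)) ≤ Real.exp (-γ) * C.vol.real (P j) := by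
    intro j
    choose x' hx' hx'' using fun x => hret η (C.lv η (L j + 2) x) hη1
    have hb : ∀ x, |L j + 2 - C.b η (x' x)| ≤ 1 := fun x => by
      simpa [C.b_lv ha hη] using (C.abs_b_sub_le ha hη _ _).trans (hx' x)
    set u : Euc n → ℝ := fun x => C.b η (x' x) - (ℓ + 1 / 2) with hu
    set e := Real.exp (-(h * (L j - ℓ))) with he
    have he0 : 0 < e := Real.exp_pos _
    have key := hE (Euc n) C.vol (d j) Z (A j) (P j) (P (j + 1))
      (fun x => C.uf η (u x) ⁻¹' {y | C.dd (x' x) y < ρ}) r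
      (c * Real.exp (-(3 * |h|)) * e / K) (K * e * M) (fun x y => C.dd_comm _ _)
      (fun x y z => tri _ _ _) (by linarith) (by positivity) rfl (fun x hx => ?_) (hPP j) (fin j)
    · refine key.trans (mul_le_mul_of_nonneg_right ?_ measureReal_nonneg)
      rw [show c * Real.exp (-(3 * |h|)) * e / K / (K * e * M) = γ by rw [hγ]; field_simp]
      linarith [Real.add_one_le_exp (-γ)]
    have hb1 := abs_le.1 (hb x)
    have lev : ∀ y, C.dd (x' x) (C.uf η (u x) y) < ρ → |C.b η (x' x) - (C.b η y + u x)| ≤ ρ :=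
      fun y hy => by rw [← C.b_uf ha hη]; exact (C.abs_b_sub_le ha hη _ _).trans hy.le
    refine ⟨((isOpen_lt (C.continuous_dd_right _) continuous_const).preimage
      (C.continuous_uf' ha hη _)).measurableSet, fun y hy => ?_, ?_, ?_,
      disjoint_left.2 fun y hy hy' => ?_⟩
    · have h1 := abs_le.1 (lev y hy)
      refine ⟨⟨by simp only [hu] at h1; linarith, by simp only [hu] at h1; linarith⟩, ?_⟩
      have h0 : C.dd (C.lv η (L j + 2) x) (C.uf η (u x) y) ≤ 2 := (tri _ (x' x) _).trans (by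
        linarith [hx' x, show C.dd (x' x) (C.uf η (u x) y) < ρ from hy])
      have h2 := contr C ha hη h0 le_rfl (l := L j) (by rw [C.b_uf ha hη]; linarith)
      rw [C.lv_lv ha hη, C.lv_uf ha hη] at h2
      simp only [mul_zero, neg_zero, Real.exp_zero, mul_one] at h2
      exact h2.trans_lt hr
    · have h1 := hJ η hη (-u x) (C.uf η (u x) ⁻¹' {y | C.dd (x' x) y < ρ})
      rw [← preimage_comp, show C.uf η (u x) ∘ C.uf η (-u x) = id from funext fun y => by
        simp [C.uf_add ha hη, C.uf_zero], preimage_id] at h1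
      have h2 := (hlow _).trans h1
      have h3 : 0 < K * Real.exp (-(h * -u x)) := by positivity
      rw [mul_comm, ← ENNReal.div_le_iff (by simpa using h3) (by simp),
        ← ENNReal.ofReal_div_of_pos h3] at h2
      refine (ENNReal.ofReal_le_ofReal ?_).trans h2
      rw [← div_div, div_right_comm, div_le_div_iff_of_pos_right hK, mul_assoc, div_eq_mul_inv,
        ← Real.exp_neg, he, ← Real.exp_add]
      gcongr
      have : |h * (u x - (L j - ℓ))| ≤ |h| * 3 := by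
        rw [abs_mul]; gcongr; rw [abs_le]; constructor <;> simp only [hu] <;> linarith
      linarith [le_abs_self (h * (u x - (L j - ℓ)))]
    · refine (measure_mono (t := C.uf η (L j - ℓ) ⁻¹' {y | C.dd (C.lv η (L j) x) y ≤ 3 * r + 1})
        fun y hy => ?_).trans ((hJ η hη _ _).trans ?_)
      · have h1 : C.dd (C.lv η (L j) y) (C.uf η (L j - ℓ) y) ≤ 1 := by
          rw [C.uf_eq_lv, show C.b η y + (L j - ℓ) = L j + (C.b η y - ℓ) by ring,
            ← C.uf_lv ha hη (L j), C.dd_uf ha hη, abs_le]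
          constructor <;> linarith [hy.1.1, hy.1.2]
        exact (tri _ _ _).trans (add_le_add hy.2.le h1)
      · rw [ENNReal.ofReal_mul (p := K * e) (by positivity)]
        gcongr; exact hup _
    · obtain ⟨z, hz, -, hzy⟩ := mem_iUnion₂.1 hy'
      have h1 := abs_le.1 (lev y hy)
      have h2 := small j z y (C.b η y + u x) hzy (by linarith)
      rw [← C.uf_eq_lv η (u x) y, C.dd_comm] at h2
      obtain ⟨τ, hτ', hO'⟩ := hx'' x (C.lv η (C.b η y + u x) z)
        ((tri _ (C.uf η (u x) y) _).trans_lt (by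
        linarith [show C.dd (x' x) (C.uf η (u x) y) < ρ from hy]))
      rw [C.fl_ou ha hη, C.uf_lv ha hη] at hO'
      refine hz.2.2 _ ⟨?_, ?_⟩ hO'
      · linarith [L0 j, hτ'.1]
      · rw [Ls]; linarith [hτ'.2]
  have it : ∀ j : ℕ, C.vol.real (P j) ≤ K₀ * Real.exp (-(γ * j)) := fun j => by
    induction j with
    | zero => simpa [Measure.real] using ENNReal.toReal_le_of_le_ofReal hK₀.le hP0
    | succ j ih =>
      refine (step j).trans ((mul_le_mul_of_nonneg_left ih (Real.exp_pos _).le).trans_eq ?_)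
      rw [mul_left_comm, ← Real.exp_add]; push_cast; ring_nf
  refine (measure_mono (t := P j) fun x hx => mem_iUnion₂.2 ⟨x, hx, hx.1, ?_⟩).trans ?_
  · simp only [d, C.dd_self]; linarith
  · rw [← ofReal_measureReal (fin j)]; exact ENNReal.ofReal_le_ofReal (it j)

theorem tailS (hE : EscS) (hR : RetS) : TailS := by
  intro n N a S G C O H hC hO
  have ha := H.a_pos
  obtain ⟨γ, hγ, Δ, hΔ, h⟩ := slab C hE hR H hC hO
  refine ⟨γ / Δ, by positivity, fun R => ?_⟩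
  obtain ⟨K, hK, h⟩ := h R
  refine ⟨(⌊2 * R⌋₊ + 1 : ℕ) * (K * Real.exp (γ * (1 + 1 / Δ))), by positivity,
    fun η x hη1 t L ht => ?_⟩
  have hη : η ≠ 0 := Cov.bas_ne0 hη1
  set j := ⌊(L - 1) / Δ⌋₊
  refine (measure_mono (t := ⋃ i ∈ Finset.range (⌊2 * R⌋₊ + 1), {y |
    C.b η y ∈ Icc (C.b η x - R + i) (C.b η x - R + i + 1) ∧ C.dd x y ≤ R ∧
      ∀ l ∈ Ico (C.b η x - R + i + (t + 1)) (C.b η x - R + i + (t + 1) + j * Δ),
        C.ou η (C.lv η l y) ∉ O}) fun y hy => ?_).trans ((measure_biUnion_finset_le _ _).trans ?_)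
  · have h1 := abs_le.1 ((C.abs_b_sub_le ha hη x y).trans hy.1)
    have h0 : 0 ≤ C.b η y - C.b η x + R := by linarith
    have h2 := Nat.floor_le h0
    have h3 := Nat.lt_floor_add_one (C.b η y - C.b η x + R)
    refine mem_iUnion₂.2 ⟨⌊C.b η y - C.b η x + R⌋₊, Finset.mem_coe.2 (Finset.mem_range.2
      (Nat.lt_succ_of_le (Nat.floor_le_floor (by linarith)))), ⟨by linarith, by linarith⟩, hy.1,
      fun l hl => ?_⟩
    rw [Cov.lv, ← C.fl_ou ha hη]
    refine hy.2 _ ⟨by linarith [hl.1], ?_⟩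
    by_cases hL : 0 ≤ (L - 1) / Δ
    · have := (le_div_iff₀ hΔ).1 (Nat.floor_le hL)
      linarith [hl.2]
    · have : j = 0 := Nat.floor_of_nonpos (not_le.1 hL).le
      have h4 := hl.2
      rw [this] at h4; simp only [Nat.cast_zero, zero_mul, add_zero] at h4
      linarith [hl.1]
  · refine (Finset.sum_le_card_nsmul _ _ _ fun i _ => h η x hη1 _ _ (by linarith) j).trans ?_
    rw [Finset.card_range, nsmul_eq_mul, ← ENNReal.ofReal_natCast,
      ← ENNReal.ofReal_mul (Nat.cast_nonneg _), mul_assoc, mul_assoc, ← Real.exp_add]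
    gcongr
    have h3 := mul_le_mul_of_nonneg_left (Nat.lt_floor_add_one ((L - 1) / Δ)).le hγ.le
    have : γ * ((L - 1) / Δ) = γ / Δ * L - γ * (1 / Δ) := by ring
    linarith

theorem winS (hT : TailS) : WinS := by
  intro n N a S G C O H hC hO p
  obtain ⟨δ, hδ, h⟩ := hT n N a S G C O H hC hO
  obtain ⟨k, hk, hp, hp1⟩ : ∃ k > 1, p ≤ δ * (k - 1) ∧ 1 ≤ δ * (k - 1) := by
    refine ⟨1 + (|p| + 1) / δ, by simp; positivity, ?_, ?_⟩ <;>
      rw [add_sub_cancel_left, mul_div_cancel₀ _ hδ.ne'] <;>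
      linarith [le_abs_self p, abs_nonneg p]
  refine ⟨k, hk, fun R => ?_⟩
  obtain ⟨K, hK, h⟩ := h R
  have hs := summable_geometric_of_lt_one (Real.exp_pos (-1)).le (Real.exp_lt_one_iff.2 (by norm_num))
  refine ⟨K * Real.exp δ * ∑' i : ℕ, Real.exp (-1) ^ i, mul_pos (by positivity)
    (hs.tsum_pos (fun i => by positivity) 0 (by positivity)), fun η x hη s hs0 => ?_⟩
  refine (measure_mono (t := ⋃ i : ℕ, {y | C.dd x y ≤ R ∧ ∀ τ ∈ Icc (s + i + 1)
    (s + i + 1 + ((k - 1) * (s + i) - 1)), fl G (C.ou η y, τ) ∉ O}) fun y hy => ?_).trans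
    ((measure_iUnion_le _).trans ?_)
  · obtain ⟨h1, h2⟩ := hy
    simp only [Win, not_forall, not_exists, not_and] at h2
    obtain ⟨s', hs', h2⟩ := h2
    have h3 := Nat.floor_le (sub_nonneg.2 hs')
    have h4 := Nat.lt_floor_add_one (s' - s)
    exact mem_iUnion.2 ⟨⌊s' - s⌋₊, h1, fun τ hτ => h2 τ ⟨by linarith [hτ.1], by
      nlinarith [hτ.2]⟩⟩
  · rw [mul_right_comm, ← tsum_mul_left, ENNReal.ofReal_tsum_of_nonneg (fun i => by positivity)
      (hs.mul_left _)]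
    refine ENNReal.tsum_le_tsum fun i => (h η x hη _ _ (by positivity)).trans ?_
    rw [← Real.exp_nat_mul, mul_assoc, mul_assoc, ← Real.exp_add, ← Real.exp_add]
    gcongr
    have : (0 : ℝ) ≤ i := Nat.cast_nonneg i
    nlinarith [mul_le_mul_of_nonneg_right hp hs0, mul_le_mul_of_nonneg_right hp1 this]

end Crest.Agent.N221.Tl
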