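import Crest.Agent.N221.Tl.Esc
import Crest.Agent.N221.Tl.Subm
import Crest.Agent.N221.Tl.Fub
import Crest.Agent.N221.Tl.Ret
import Crest.Agent.N221.Tl.Tail
import Crest.Agent.N221.Tl.Curve

/-! Row 221, block TAILS without hypotheses. -/

set_option autoImplicit false

namespace Crest.Agent.N221.Tl

theorem tail : TailS := tailS escS retS
theorem win : WinS := winS tail
theorem cpt : CptS := cptS submS win
theorem ae : AeS := aeS cpt
theorem curve : CurveS := curveS fubS cpt

end Crest.Agent.N221.Tl
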