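import Crest.Agent.N221.Tl.Defs

/-!
Row 221, block TAILS: the flow `uf η` on a weak unstable leaf, levels `lv η l y`.
-/

set_option autoImplicit false

open MeasureTheory Set Filter Topology Metric
open scoped ContDiff RealInnerProductSpace ENNReal
open Crest.GeometryTopology.Submanifold
open Crest.Agent.R241.DDefs Crest.Agent.R241.D2
open Crest.Agent.R208.J Crest.Agent.R208.L

noncomputable section

namespace Crest.Agent.N221.Cov

variable {n N : ℕ} {a : ℝ} {S : Set (Euc N)} {G : Geo n N (-(a ^ 2)) S} (C : Cov G)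
variable {x y η : Euc n}

lemma uf_zero (η y : Euc n) : C.uf η 0 y = y := C.gd_zero _ _

lemma uf_eq (η y : Euc n) (t : ℝ) : C.uf η t y = C.gd y (C.W η y) (-t) := by
  rw [uf, gd_neg]

/-- the point at level `l` (value of `b η`) of the geodesic from `η` through `y` -/
def lv (η : Euc n) (l : ℝ) (y : Euc n) : Euc n := C.uf η (l - C.b η y) y

variable (ha : 0 < a)
include ha

lemma un_ou (hη : η ≠ 0) (y : Euc n) : C.Un y (-C.W η y) := (C.un_W ha hη y).neg

lemma ou_mem (hη : η ≠ 0) (y : Euc n) : C.ou η y ∈ US G := C.un_ou ha hη y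

lemma W_uf (hη : η ≠ 0) (t : ℝ) (y : Euc n) :
    -C.W η (C.uf η t y) = C.vel y (-C.W η y) t := by
  rw [uf_eq, C.W_gd ha hη, C.vel_neg (C.un_W ha hη y).mem]

lemma fl_ou (hη : η ≠ 0) (t : ℝ) (y : Euc n) : fl G (C.ou η y, t) = C.ou η (C.uf η t y) := by
  rw [ou, C.up_gd (C.un_ou ha hη y).mem, ou, C.W_uf ha hη]; rfl

lemma uf_add (hη : η ≠ 0) (s t : ℝ) (y : Euc n) :
    C.uf η t (C.uf η s y) = C.uf η (s + t) y := by
  rw [uf, C.W_uf ha hη, uf, C.gd_add (C.un_ou ha hη y).mem]; rfl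

lemma b_uf (hη : η ≠ 0) (t : ℝ) (y : Euc n) : C.b η (C.uf η t y) = C.b η y + t := by
  rw [uf_eq, C.b_gd ha hη]; ring

lemma dd_uf (hη : η ≠ 0) (t : ℝ) (y : Euc n) : C.dd y (C.uf η t y) = |t| :=
  Un.dd_gd_zero C (C.un_ou ha hη y) t

lemma continuousOn_uf :
    ContinuousOn (fun p : Euc n × ℝ × Euc n => C.uf p.1 p.2.1 p.2.2) {p | p.1 ≠ 0} :=
  C.continuous_gd.comp_continuousOn (f := fun p : Euc n × ℝ × Euc n =>
    (p.2.2, -C.W p.1 p.2.2, p.2.1)) <| (by fun_prop : Continuous _).continuousOn.prodMk <|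
    ((C.continuousOn_W ha).comp (f := fun p : Euc n × ℝ × Euc n => (p.1, p.2.2))
      (by fun_prop) fun _ h => h).neg.prodMk (by fun_prop)

lemma continuousOn_ou : ContinuousOn (fun p : Euc n × Euc n => C.ou p.1 p.2) {p | p.1 ≠ 0} :=
  (C.pr_smooth.continuous.comp continuous_snd).continuousOn.prodMk (C.continuousOn_W ha).neg

lemma continuous_uf (hη : η ≠ 0) : Continuous fun p : ℝ × Euc n => C.uf η p.1 p.2 :=
  (C.continuousOn_uf ha).comp_continuous (f := fun p : ℝ × Euc n => (η, p)) (by fun_prop)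
    fun _ => hη

lemma continuous_uf' (hη : η ≠ 0) (t : ℝ) : Continuous (C.uf η t) :=
  (C.continuous_uf ha hη).comp (f := fun y => (t, y)) (by fun_prop)

lemma continuous_b (hη : η ≠ 0) : Continuous (C.b η) :=
  (C.continuousOn_b ha).comp_continuous (f := fun y => (η, y)) (by fun_prop) fun _ => hη

lemma b_lv (hη : η ≠ 0) (l : ℝ) (y : Euc n) : C.b η (C.lv η l y) = l := by
  rw [lv, C.b_uf ha hη]; ring

lemma lv_uf (hη : η ≠ 0) (l t : ℝ) (y : Euc n) : C.lv η l (C.uf η t y) = C.lv η l y := by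
  rw [lv, C.uf_add ha hη, C.b_uf ha hη, lv]; congr 1; ring

lemma uf_lv (hη : η ≠ 0) (l t : ℝ) (y : Euc n) : C.uf η t (C.lv η l y) = C.lv η (l + t) y := by
  rw [lv, C.uf_add ha hη, lv]; congr 1; ring

lemma lv_lv (hη : η ≠ 0) (l l' : ℝ) (y : Euc n) : C.lv η l (C.lv η l' y) = C.lv η l y :=
  C.lv_uf ha hη _ _ _

omit ha in
lemma uf_eq_lv (η : Euc n) (t : ℝ) (y : Euc n) : C.uf η t y = C.lv η (C.b η y + t) y := by
  rw [lv]; congr 1; ring

/-- exponential contraction in the past (`asy_tail`) -/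
lemma dd_lv_le (hη : η ≠ 0) (x y : Euc n) {l : ℝ} (hl : l ≤ C.b η y) :
    C.dd (C.lv η l y) (C.lv η l x) ≤
      2 / a * Real.exp (-(a * (C.b η y - l))) * Real.sinh (a * C.dd x y) := by
  have h := C.asy_tail ha (C.un_W ha hη x) y (sub_nonneg.2 hl)
  rw [C.asy_W ha hη, C.bus_W ha hη] at h
  rw [lv, lv, uf_eq, uf_eq, neg_sub, neg_sub]
  convert h using 3; ring

lemma ou_deck {g : Euc n → Euc n} (hg : C.Deck g) (hη : η ≠ 0) (y : Euc n) :
    C.ou (C.act g η) (g y) = C.ou η y := by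
  rw [ou, ou, hg.pr_eq, C.W_act ha hg hη]

end Crest.Agent.N221.Cov
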