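import Crest.Agent.N221.All
import Crest.Agent.N221.D.Dyn

/-!
Row 221, step A1, block TAILS (helper72): exponential tails of the return times to an open set,
leafwise, and typical curves.

The weak unstable leaf of a boundary point `η` is the whole cover: `y ↦ C.ou η y`, the unit vector
at `y` pointing away from `η`; the geodesic flow acts on it by `C.uf η t`.  Everything is measured
with the Riemannian volume `C.vol` of the cover; `Cob G` makes the Jacobian of `uf η t` comparable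
with `e^{h t}` (`JacS`).  `Win G O κ s q`: the forward orbit of `q` meets `O` in every window
`[s', κ s']`, `s' ≥ s`.  Output: `CptS`, `AeS`, `CurveS` (file `Tl/All`).
-/

set_option autoImplicit false

open MeasureTheory Set Filter Topology Metric
open scoped ContDiff RealInnerProductSpace ENNReal
open Crest.GeometryTopology.Submanifold
open Crest.Agent.R241.DDefs Crest.Agent.R241.D2
open Crest.Agent.R208.J Crest.Agent.R208.L

noncomputable section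

namespace Crest.Agent.N221

namespace Cov

variable {n N : ℕ} {κ : ℝ} {S : Set (Euc N)} {G : Geo n N κ S} (C : Cov G)

/-- the unit vector at `y` pointing away from `η`, downstairs -/
def ou (η y : Euc n) : TT N := (C.pr y, -C.W η y)

/-- the geodesic flow on the weak unstable leaf of `η` -/
def uf (η : Euc n) (t : ℝ) (y : Euc n) : Euc n := C.gd y (-C.W η y) t

/-- `J` is a submersion at `z` modulo the direction of the geodesics issuing from `η` -/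
def Sub {E : Type} [NormedAddCommGroup E] [NormedSpace ℝ E] (η : Euc n) (J : E → Euc n) (z : E) :
    Prop :=
  ∃ J' : E →L[ℝ] Euc n, HasStrictFDerivAt J J' z ∧ ∀ v : Euc n, ∃ (w : E) (s : ℝ),
    fderiv ℝ C.pr (J z) (J' w) + s • C.W η (J z) = fderiv ℝ C.pr (J z) v

end Cov

namespace Tl

section
variable {n N : ℕ} {κ : ℝ} {S : Set (Euc N)} (G : Geo n N κ S)

/-- `O` contains a nonempty relatively open part of the unit tangent bundle -/
def Fat (O : Set (TT N)) : Prop := ∃ q ∈ US G, ∃ r > 0, US G ∩ ball q r ⊆ O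

/-- the orbit of `q` meets `O` in every window `[s', k s']`, `s' ≥ s` -/
def Win (O : Set (TT N)) (k s : ℝ) (q : TT N) : Prop :=
  ∀ s', s ≤ s' → ∃ τ ∈ Icc s' (k * s'), fl G (q, τ) ∈ O

end

/-! ### Mathlib-only statements -/

/-- one step of the escape estimate.  Take a finite `F ⊆ A`, `2 r`-separated for `d`, of maximal
cardinality (the `T x`, `x ∈ F`, are disjoint in `P`, so `|F| m ≤ ν P`); `P` is covered by the
`3 r`-balls about `F`, so `ν P ≤ |F| M`; `ν P' + |F| m ≤ ν P` (`measure_inter_add_diff`). -/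
def EscS : Prop := ∀ (X : Type) [MeasurableSpace X] (ν : Measure X) (d : X → X → ℝ)
  (Z A P P' : Set X) (T : X → Set X) (r m M : ℝ), (∀ x y, d x y = d y x) →
  (∀ x y z, d x z ≤ d x y + d y z) → 0 < r → 0 < m → P = ⋃ x ∈ A, {y | y ∈ Z ∧ d x y < r} →
  (∀ x ∈ A, MeasurableSet (T x) ∧ T x ⊆ {y | y ∈ Z ∧ d x y < r} ∧ ENNReal.ofReal m ≤ ν (T x) ∧
    ν {y | y ∈ Z ∧ d x y < 3 * r} ≤ ENNReal.ofReal M ∧ Disjoint (T x) P') →
  P' ⊆ P → ν P ≠ ⊤ → ν.real P' ≤ (1 - m / M) * ν.real P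

/-- preimages under a submersion have comparable measure (implicit function chart
`E → F × ker f'`, Lipschitz inverse, Hausdorff measures are Haar measures, finite cover) -/
def SubmS : Prop := ∀ (E F : Type) [NormedAddCommGroup E] [NormedSpace ℝ E] [FiniteDimensional ℝ E]
  [MeasurableSpace E] [BorelSpace E] [NormedAddCommGroup F] [NormedSpace ℝ F]
  [FiniteDimensional ℝ F] [MeasurableSpace F] [BorelSpace F] (μ : Measure E) (ν : Measure F)
  [μ.IsAddHaarMeasure] [ν.IsAddHaarMeasure] (f : E → F) (K : Set E), IsCompact K →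
  (∀ x ∈ K, ∃ f' : E →L[ℝ] F, HasStrictFDerivAt f f' x ∧ Function.Surjective f') →
  ∃ V ∈ 𝓝ˢ K, ∃ c : ℝ, 0 < c ∧ ∀ B, μ (V ∩ f ⁻¹' B) ≤ ENNReal.ofReal c * ν B

/-- Fubini + Markov + Borel-Cantelli: almost every line has good points in every `ε`-interval -/
def FubS : Prop := ∀ (E : Type) [MetricSpace E] [ProperSpace E] [MeasurableSpace E] [BorelSpace E]
  (μ : Measure E) [SFinite μ] (Ω : Set (E × ℝ)) (B : ℝ → Set (E × ℝ)), IsOpen Ω → Antitone B →
  (∀ K, IsCompact K → K ⊆ Ω → ∃ c : ℝ, ∀ s, 0 ≤ s →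
    (μ.prod volume) (K ∩ B s) ≤ ENNReal.ofReal (c * Real.exp (-(2 * s)))) →
  ∀ᵐ e ∂μ, ∀ a b : ℝ, (∀ t ∈ Icc a b, (e, t) ∈ Ω) → ∃ ε₀ > 0, ∀ ε ∈ Ioo 0 ε₀, ∀ u, a ≤ u →
    u + ε ≤ b → ∃ t ∈ Icc u (u + ε), (e, t) ∉ B (Real.log ε⁻¹)

/-! ### geometric statements -/

/-- bounded distortion (polar coordinates about `gd 0 (W η 0) T`, `DnS`, `Cob`, Fatou) -/
def JacS : Prop := ∀ (n N : ℕ) (a : ℝ) (S : Set (Euc N)) (G : Geo n N (-(a ^ 2)) S) (C : Cov G),
  Hyp n N a S → Cob G → ∃ h K : ℝ, 0 < K ∧ ∀ η : Euc n, η ≠ 0 → ∀ (t : ℝ) (B : Set (Euc n)),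
    C.vol (C.uf η t ⁻¹' B) ≤ ENNReal.ofReal (K * Real.exp (-(h * t))) * C.vol B

/-- uniform return: every unit ball of a weak unstable leaf contains an `r₀`-ball that enters `O`
before the time `τ₀` -/
def RetS : Prop := ∀ (n N : ℕ) (a : ℝ) (S : Set (Euc N)) (G : Geo n N (-(a ^ 2)) S) (C : Cov G)
  (O : Set (TT N)), Hyp n N a S → Fat G O → ∃ τ₀ r₀ : ℝ, 0 ≤ τ₀ ∧ 0 < r₀ ∧ ∀ η x : Euc n,
    ‖η‖ = 1 → ∃ x', C.dd x x' ≤ 1 ∧ ∀ y, C.dd x' y < r₀ → ∃ τ ∈ Icc 0 τ₀, fl G (C.ou η y, τ) ∈ O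

/-- exponential tails -/
def TailS : Prop := ∀ (n N : ℕ) (a : ℝ) (S : Set (Euc N)) (G : Geo n N (-(a ^ 2)) S) (C : Cov G)
  (O : Set (TT N)), Hyp n N a S → Cob G → Fat G O → ∃ δ > 0, ∀ R : ℝ, ∃ K > 0, ∀ η x : Euc n,
    ‖η‖ = 1 → ∀ t L : ℝ, 0 ≤ t →
      C.vol {y | C.dd x y ≤ R ∧ ∀ τ ∈ Icc t (t + L), fl G (C.ou η y, τ) ∉ O} ≤
        ENNReal.ofReal (K * Real.exp (-(δ * L)))

/-- windows -/
def WinS : Prop := ∀ (n N : ℕ) (a : ℝ) (S : Set (Euc N)) (G : Geo n N (-(a ^ 2)) S) (C : Cov G)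
  (O : Set (TT N)), Hyp n N a S → Cob G → Fat G O → ∀ p : ℝ, ∃ k > 1, ∀ R : ℝ, ∃ K > 0,
    ∀ η x : Euc n, ‖η‖ = 1 → ∀ s : ℝ, 0 ≤ s →
      C.vol {y | C.dd x y ≤ R ∧ ¬ Win G O k s (C.ou η y)} ≤ ENNReal.ofReal (K * Real.exp (-(p * s)))

/-- windows on any parametrised compact piece of a leaf -/
def CptS : Prop := ∀ (n N : ℕ) (a : ℝ) (S : Set (Euc N)) (G : Geo n N (-(a ^ 2)) S) (C : Cov G)
  (O : Set (TT N)), Hyp n N a S → Cob G → Fat G O → ∀ p : ℝ, ∃ k > 1,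
    ∀ (E : Type) [NormedAddCommGroup E] [NormedSpace ℝ E] [FiniteDimensional ℝ E]
      [MeasurableSpace E] [BorelSpace E] (μ : Measure E) [μ.IsAddHaarMeasure]
      (η : Euc n) (J : E → Euc n) (K : Set E), ‖η‖ = 1 → IsCompact K → (∀ z ∈ K, C.Sub η J z) →
      ∃ V ∈ 𝓝ˢ K, ∃ c > 0, ∀ s : ℝ, 0 ≤ s →
        μ (V ∩ {z | ¬ Win G O k s (C.ou η (J z))}) ≤ ENNReal.ofReal (c * Real.exp (-(p * s)))

/-- almost every point of a leaf has the window property from some time on -/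
def AeS : Prop := ∀ (n N : ℕ) (a : ℝ) (S : Set (Euc N)) (G : Geo n N (-(a ^ 2)) S) (C : Cov G)
  (O : Set (TT N)), Hyp n N a S → Cob G → Fat G O → ∃ k > 1,
    ∀ (E : Type) [NormedAddCommGroup E] [NormedSpace ℝ E] [FiniteDimensional ℝ E]
      [MeasurableSpace E] [BorelSpace E] (μ : Measure E) [μ.IsAddHaarMeasure]
      (η : Euc n) (J : E → Euc n), ‖η‖ = 1 →
      ∀ᵐ z ∂μ, C.Sub η J z → ∃ s > 0, Win G O k s (C.ou η (J z))

/-- TYPICAL CURVES: for a family of curves `t ↦ J (e, t)` filling an open part of a leaf, almost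
every curve has, in every `ε`-interval, a point with returns in all windows `[s', k s']`,
`s' ≥ c log (1/ε)` -/
def CurveS : Prop := ∀ (n N : ℕ) (a : ℝ) (S : Set (Euc N)) (G : Geo n N (-(a ^ 2)) S) (C : Cov G)
  (O : Set (TT N)), Hyp n N a S → Cob G → Fat G O → ∀ c > 0, ∃ k > 1,
    ∀ (E : Type) [NormedAddCommGroup E] [NormedSpace ℝ E] [FiniteDimensional ℝ E]
      [MeasurableSpace E] [BorelSpace E] (μ : Measure E) [μ.IsAddHaarMeasure]
      (η : Euc n) (J : E × ℝ → Euc n) (Ω : Set (E × ℝ)), ‖η‖ = 1 → IsOpen Ω →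
      (∀ z ∈ Ω, C.Sub η J z) →
      ∀ᵐ e ∂μ, ∀ a b : ℝ, (∀ t ∈ Icc a b, (e, t) ∈ Ω) → ∃ ε₀ > 0, ∀ ε ∈ Ioo 0 ε₀, ∀ u, a ≤ u →
        u + ε ≤ b → ∃ t ∈ Icc u (u + ε), Win G O k (c * Real.log ε⁻¹) (C.ou η (J (e, t)))

end Tl

end Crest.Agent.N221
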