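import Crest.Agent.N221.Tl.Defs

/-! Row 221, block TAILS: one step of the escape estimate (helper66). -/

set_option autoImplicit false

open MeasureTheory Set
open scoped ENNReal

namespace Crest.Agent.N221.Tl

theorem escS : EscS := by
  classical
  intro X _ ν d Z A P P' T r m M hs ht hr hm hP hT hP' hfin
  have hTP : ∀ x ∈ A, T x ⊆ P := fun x hx y hy => hP ▸ mem_biUnion hx ((hT x hx).2.1 hy)
  let Sep : Finset X → Prop := fun F => (∀ x ∈ F, x ∈ A) ∧ ∀ x ∈ F, ∀ x' ∈ F, x ≠ x' → 2 * r ≤ d x x'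
  have key : ∀ F, Sep F → F.card * m + ν.real P' ≤ ν.real P := by
    intro F ⟨hA, hF⟩
    have hU : MeasurableSet (⋃ x ∈ F, T x) := F.measurableSet_biUnion fun x hx => (hT x (hA x hx)).1
    have hUP : (⋃ x ∈ F, T x) ⊆ P := iUnion₂_subset fun x hx => hTP x (hA x hx)
    have h1 : F.card * m ≤ ν.real (⋃ x ∈ F, T x) := by
      rw [measureReal_biUnion_finset (fun x hx x' hx' hne => disjoint_left.2 fun y hy hy' => ?_)
        (fun x hx => (hT x (hA x hx)).1) fun x hx => measure_ne_top_of_subset (hTP x (hA x hx)) hfin]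
      · rw [← nsmul_eq_mul]
        exact F.card_nsmul_le_sum _ _ fun x hx => (ENNReal.ofReal_le_iff_le_toReal
          (measure_ne_top_of_subset (hTP x (hA x hx)) hfin)).1 (hT x (hA x hx)).2.2.1
      · have h1 := ((hT x (hA x hx)).2.1 hy).2
        have h2 := ((hT x' (hA x' hx')).2.1 hy').2
        linarith [hF x hx x' hx' hne, ht x y x', hs y x']
    have h2 : ν.real P' ≤ ν.real (P \ ⋃ x ∈ F, T x) :=
      measureReal_mono (fun y hy => ⟨hP' hy, fun h => by
        obtain ⟨x, hx, hy'⟩ := mem_iUnion₂.1 h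
        exact disjoint_left.1 (hT x (hA x hx)).2.2.2.2 hy' hy⟩) (measure_ne_top_of_subset sdiff_subset hfin)
    have h3 := measureReal_inter_add_sdiff (s := P) hU hfin
    rw [inter_eq_self_of_subset_right hUP] at h3
    linarith
  have hbd : BddAbove (Finset.card '' {F | Sep F}) := ⟨⌈ν.real P / m⌉₊, by
    rintro _ ⟨F, hF, rfl⟩
    have h1 := key F hF
    have h2 : (F.card : ℝ) ≤ ν.real P / m := by
      rw [le_div_iff₀ hm]; linarith [measureReal_nonneg (μ := ν) (s := P')]
    exact_mod_cast h2.trans (Nat.le_ceil _)⟩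
  obtain ⟨F, hF, hc⟩ := Nat.sSup_mem (s := Finset.card '' {F | Sep F}) ⟨0, ∅, ⟨by simp, by simp⟩, rfl⟩ hbd
  have hcov : P ⊆ ⋃ x ∈ F, {y | y ∈ Z ∧ d x y < 3 * r} := by
    intro y hy
    rw [hP] at hy
    obtain ⟨x, hx, hy⟩ := mem_iUnion₂.1 hy
    by_cases hxF : x ∈ F
    · exact mem_iUnion₂.2 ⟨x, hxF, hy.1, by linarith [hy.2]⟩
    by_contra hn
    have h1 : ∀ x' ∈ F, 2 * r ≤ d x' x := fun x' hx' => not_lt.1 fun h =>
      hn (mem_iUnion₂.2 ⟨x', hx', hy.1, by linarith [hy.2, ht x' x y]⟩)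
    have h2 : Sep (insert x F) := ⟨Finset.forall_mem_insert _ _ _ |>.2 ⟨hx, hF.1⟩, fun u hu v hv huv => by
      rcases Finset.mem_insert.1 hu with rfl | hu' <;> rcases Finset.mem_insert.1 hv with rfl | hv'
      exacts [absurd rfl huv, hs _ _ ▸ h1 v hv', h1 u hu', hF.2 u hu' v hv' huv]⟩
    have h3 := le_csSup hbd ⟨_, h2, rfl⟩
    rw [← hc, Finset.card_insert_of_notMem hxF] at h3
    omega
  have h4 : ν.real P ≤ F.card * max M 0 := by
    have h5 := (measure_mono hcov).trans ((measure_biUnion_finset_le F _).trans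
      (F.sum_le_card_nsmul _ _ fun x hx => (hT x (hF.1 x hx)).2.2.2.1))
    have h6 := ENNReal.toReal_mono (by simp [ENNReal.mul_eq_top]) h5
    rwa [ENNReal.toReal_nsmul, ENNReal.toReal_ofReal', nsmul_eq_mul] at h6
  have h5 := key F hF
  rcases le_or_gt M 0 with h | h
  · rw [max_eq_right h, mul_zero] at h4
    have h6 : ν.real P = 0 := le_antisymm h4 measureReal_nonneg
    rw [h6, mul_zero]
    exact (measureReal_mono hP' hfin).trans h4
  · rw [max_eq_left h.le] at h4
    have h6 : m / M * ν.real P ≤ F.card * m := by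
      rw [div_mul_eq_mul_div, div_le_iff₀ h]
      nlinarith
    linarith

end Crest.Agent.N221.Tl
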