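import Crest.Agent.N221.Tl.Bas

/-!
Row 221, block TAILS: bounded distortion of `uf η t` for the volume of the cover.
-/

set_option autoImplicit false

open MeasureTheory Set Filter Topology Metric
open scoped ContDiff RealInnerProductSpace ENNReal
open Crest.GeometryTopology.Submanifold
open Crest.Agent.R241.DDefs Crest.Agent.R241.D2
open Crest.Agent.R208.J Crest.Agent.R208.L

noncomputable section

namespace Crest.Agent.N221.Tl

variable {n N : ℕ} {a : ℝ} {S : Set (Euc N)} {G : Geo n N (-(a ^ 2)) S} (C : Cov G)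

/-- the polar density under `Cob` -/
lemma Dn_shift (H : Hyp n N a S) (hC : Cob G) : ∃ h K : ℝ, 0 < K ∧ ∀ q ∈ US G, ∀ r t : ℝ,
    0 ≤ r → 1 ≤ r + t → Dn G q 0 r ≤ K * Real.exp (-(h * t)) * Dn G q 0 (r + t) := by
  obtain ⟨h, α, hα, e⟩ := hC
  obtain ⟨D, hD, hd⟩ := dn n N a S G H
  obtain ⟨B, hB⟩ := (muS n N a S G H).1.exists_bound_of_continuousOn hα
  refine ⟨h, D * D * Real.exp (2 * B), by positivity, fun q hq r t hr ht => ?_⟩
  have m : ∀ s, ph G s q ∈ US G := fun s => ⟨fl_mem G hq.1 s, by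
    obtain ⟨x, hx, hu⟩ := (covS n N a S G H).some.exists_un hq
    have := (Cov.Un.vel _ hu s).norm
    rw [Cov.vel, hx] at this; exact this⟩
  have h1 := e q hq r
  have h2 := e q hq (r + t)
  have h3 := abs_le.1 (hB _ (m r))
  have h4 := abs_le.1 (hB _ (m (r + t)))
  calc Dn G q 0 r ≤ D * Real.exp (St G r q) := (hd q hq).1 r hr
    _ ≤ D * (Real.exp (2 * B) * Real.exp (-(h * t)) * Real.exp (St G (r + t) q)) := by
        gcongr
        rw [← Real.exp_add, ← Real.exp_add]
        exact Real.exp_le_exp.2 (by nlinarith)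
    _ ≤ D * (Real.exp (2 * B) * Real.exp (-(h * t)) * (D * Dn G q 0 (r + t))) := by
        gcongr; exact (hd q hq).2 _ ht
    _ = _ := by ring

/-- the radial flow from `p` -/
lemma radial (H : Hyp n N a S) {K : ℝ} (hK : 0 ≤ K) {t : ℝ} (hd : ∀ q ∈ US G, ∀ r : ℝ,
    0 ≤ r → 1 ≤ r + t → Dn G q 0 r ≤ K * Dn G q 0 (r + t)) (p : Euc n) {U : Set (Euc n)}
    (hU : IsOpen U) : C.vol {y | |t| + 1 ≤ C.dd p y ∧ C.gd y (-C.dir y p) t ∈ U} ≤
      ENNReal.ofReal K * C.vol U := by
  have hl : Continuous fun y => C.lg y p :=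
    C.lg_smooth.continuous.comp (f := fun y => (y, p)) (by fun_prop)
  have hm : MeasurableSet {y | |t| + 1 ≤ C.dd p y ∧ C.gd y (-C.dir y p) t ∈ U} := by
    refine (isClosed_le continuous_const (C.continuous_dd_right p)).measurableSet.inter
      (hU.measurableSet.preimage (C.continuous_gd.measurable.comp
        (f := fun y => (y, -C.dir y p, t)) (measurable_id.prodMk (.prodMk ?_ measurable_const))))
    exact (hl.norm.measurable.inv.smul hl.measurable).neg
  rw [← lintegral_indicator_one hm, ← lintegral_indicator_one hU.measurableSet,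
    C.polar H p (measurable_one.indicator hm), C.polar H p
      (measurable_one.indicator hU.measurableSet), ← lintegral_const_mul' _ _ (by simp)]
  refine lintegral_mono_ae ((Cov.ae_nuF H (C.pr_mem p)).mono fun u hu => ?_)
  have hu' : C.Un p u := hu
  rw [← lintegral_indicator measurableSet_Ioi, ← lintegral_indicator measurableSet_Ioi,
    ← lintegral_const_mul' _ _ (by simp), ← lintegral_add_right_eq_self
      (fun r => ENNReal.ofReal K * indicator (Ioi (0 : ℝ)) _ r) t]
  refine lintegral_mono fun r => ?_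
  by_cases hr : r ∈ Ioi (0 : ℝ)
  swap
  · simp [hr]
  rw [indicator_of_mem hr]
  by_cases h : C.gd p u r ∈ {y | |t| + 1 ≤ C.dd p y ∧ C.gd y (-C.dir y p) t ∈ U}
  swap
  · simp [indicator_of_notMem h]
  obtain ⟨h1, h2⟩ := id h
  rw [Cov.Un.dd_gd_zero C hu', abs_of_pos (a := r) hr] at h1
  have e : C.dir (C.gd p u r) p = -C.vel p u r := by
    simpa [C.gd_zero] using Cov.Un.dir_gd' C hu' (s := r) (t := 0) hr
  rw [e, neg_neg, C.gd_add hu'.mem] at h2
  have h3 := neg_abs_le t
  simp only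
  rw [indicator_of_mem h, indicator_of_mem (show r + t ∈ Ioi (0 : ℝ) by
    rw [mem_Ioi]; linarith), indicator_of_mem h2, Pi.one_apply, Pi.one_apply, mul_one, mul_one,
    ← ENNReal.ofReal_mul hK]
  exact ENNReal.ofReal_le_ofReal (hd _ hu r (le_of_lt hr) (by linarith))

theorem jacS : JacS := by
  intro n N a S G C H hC
  obtain ⟨h, K, hK, hd⟩ := Dn_shift H hC
  have ha := H.a_pos
  refine ⟨h, K, hK, fun η hη t B => ?_⟩
  have hK' : 0 < K * Real.exp (-(h * t)) := by positivity
  have op : ∀ U, IsOpen U → C.vol (C.uf η t ⁻¹' U) ≤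
      ENNReal.ofReal (K * Real.exp (-(h * t))) * C.vol U := by
    intro U hU
    set p : ℕ → Euc n := fun k => C.gd 0 (C.W η 0) k
    set A : ℕ → Set (Euc n) := fun k =>
      {y | |t| + 1 ≤ C.dd (p k) y ∧ C.gd y (-C.dir y (p k)) t ∈ U}
    have hs : C.uf η t ⁻¹' U ⊆ ⋃ k, ⋂ j ≥ k, A j := by
      intro y hy
      have h1 : Tendsto (fun k => C.gd y (-C.dir y (p k)) t) atTop (𝓝 (C.uf η t y)) :=
        (C.continuous_gd.tendsto (y, -C.W η y, t)).comp (tendsto_const_nhds.prodMk_nhds
          (((C.tendsto_W ha hη 0 y).comp tendsto_natCast_atTop_atTop).neg.prodMk_nhds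
            tendsto_const_nhds))
      have h2 : ∀ᶠ k : ℕ in atTop, |t| + 1 + C.dd 0 y ≤ k :=
        tendsto_natCast_atTop_atTop.eventually_ge_atTop _
      obtain ⟨k, hk⟩ := eventually_atTop.1 (h2.and (h1.eventually_mem (hU.mem_nhds hy)))
      refine mem_iUnion.2 ⟨k, mem_iInter₂.2 fun j hj => ⟨?_, (hk j hj).2⟩⟩
      have := C.le_dd_gd ha (C.un_W ha hη 0) y j
      rw [C.dd_comm]; linarith [(hk j hj).1]
    refine (measure_mono hs).trans ?_
    rw [Monotone.measure_iUnion fun i j hij => biInter_subset_biInter_left fun k hk =>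
      le_trans hij hk]
    exact iSup_le fun k => (measure_mono (biInter_subset_of_mem (le_refl k))).trans
      (radial C H hK'.le (fun q hq r => hd q hq r t) _ hU)
  rw [Set.measure_eq_iInf_isOpen B]
  have h0 : ENNReal.ofReal (K * Real.exp (-(h * t))) ≠ 0 := by simpa using hK'
  simp only [ENNReal.mul_iInf_of_ne h0 ENNReal.ofReal_ne_top, le_iInf_iff]
  exact fun U hBU hU => (measure_mono (preimage_mono hBU)).trans (op U hU)

end Crest.Agent.N221.Tl
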